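import Vale.Agent.P216.T695.End
import Vale.Agent.P216.T695.IfaceB
import Vale.Agent.P216.B633.T12

set_option linter.unusedSectionVars false

/-!
# Theorem B of P216: the end of the algebraic argument, version B

Only the dimensions of the global classes are used (no `Δ y_k = k x_k`, no `p ∤ k`).
-/

open Module Set

namespace Vale.Agent.P216.T695

open Vale.Agent.P216.AS (USeq chi Crit)
open Vale.Agent.P216.Tight923
open Vale.Agent.P216.B633

/-! ### The count of the torsion in the equality case -/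

/-- In the equality case the torsion has exactly the size of the new global classes. -/
theorem torsion_count {k : Type} [Field k] {Hi H F H' : ℕ → Type}
    [∀ n, AddCommGroup (Hi n)] [∀ n, Module k (Hi n)]
    [∀ n, AddCommGroup (H n)] [∀ n, Module k (H n)]
    [∀ n, AddCommGroup (F n)] [∀ n, Module k (F n)]
    [∀ n, AddCommGroup (H' n)] [∀ n, Module k (H' n)]
    [∀ n, FiniteDimensional k (H n)] [∀ n, FiniteDimensional k (F n)]
    [∀ n, FiniteDimensional k (H' n)]
    (G : USeq k F H) (L : Loc k F H' G.u)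
    (rH : ∀ n, Hi n →ₗ[k] H n) (rH' : ∀ n, Hi n →ₗ[k] H' n)
    (hfin : ∃ N, ∀ n ≥ N, Subsingleton (H n)) (hfin' : ∃ N, ∀ n ≥ N, Subsingleton (H' n))
    (q : ℕ) (hq : q < 2) (hR : Rinf k rH q = Rinf k rH' q)
    (hT : ∀ e, e % 2 ≠ q → ∀ x, x ∈ tor G.u e → x = 0) :
    ∃ M, ∀ m ≥ M, ∑ i ∈ Finset.range (m + 1), finrank k (torE G (q + 2 * i)) +
      ∑ i ∈ Finset.range (m + 1), finrank k (LinearMap.range (rH' (q + 2 * i))) =
      ∑ i ∈ Finset.range (m + 1), finrank k (LinearMap.range (rH (q + 2 * i))) := by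
  obtain ⟨N₀, hN₀⟩ := hfin
  obtain ⟨N₀', hN₀'⟩ := hfin'
  obtain ⟨N₁, hN₁⟩ := L.inj
  obtain ⟨N₂, hN₂⟩ := L.surj
  refine ⟨N₀ + N₀' + N₁ + N₂, fun m hm => ?_⟩
  have e1 : Rinf k rH q = ∑ i ∈ Finset.range (m + 1),
      (finrank k (H (q + 2 * i)) - finrank k (LinearMap.range (rH (q + 2 * i)))) := by
    refine finsum_parity q hq
      (fun n => finrank k (H n) - finrank k (LinearMap.range (rH n))) N₀ (m + 1) ?_ (by omega)
    intro n hn
    have := hN₀ n hn
    change finrank k (H n) - _ = 0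
    rw [finrank_zero_of_subsingleton, Nat.zero_sub]
  have e2 : Rinf k rH' q = ∑ i ∈ Finset.range (m + 1),
      (finrank k (H' (q + 2 * i)) - finrank k (LinearMap.range (rH' (q + 2 * i)))) := by
    refine finsum_parity q hq
      (fun n => finrank k (H' n) - finrank k (LinearMap.range (rH' n))) N₀' (m + 1) ?_
      (by omega)
    intro n hn
    have := hN₀' n hn
    change finrank k (H' n) - _ = 0
    rw [finrank_zero_of_subsingleton, Nat.zero_sub]
  have e3 := sum_tsub_add (m := m + 1) (a := fun i => finrank k (H (q + 2 * i)))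
    (b := fun i => finrank k (LinearMap.range (rH (q + 2 * i))))
    fun n => Submodule.finrank_le _
  have e4 := sum_tsub_add (m := m + 1) (a := fun i => finrank k (H' (q + 2 * i)))
    (b := fun i => finrank k (LinearMap.range (rH' (q + 2 * i))))
    fun n => Submodule.finrank_le _
  have e5 := sum_h G q hq m
  have e6 := sum_a G q hq (fun n => tor G.u n) (fun n => by
    rintro _ ⟨x, hx, rfl⟩
    exact u_mem_tor.2 hx) m
  have e8 := finrank_loc L hq (m := m + 1) (e := q + 2 * m) hN₁ hN₂ hN₀' (by omega)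
    (by omega) (by omega) (by omega)
  -- the correction terms vanish
  have e9 : ∑ i ∈ Finset.range m,
        ((finrank k (tor G.u (q + 2 * i + 2) ⊓ LinearMap.range (G.u (q + 2 * i)) :
            Submodule k (F (q + 2 * i + 2))) -
          finrank k ((tor G.u (q + 2 * i)).map (G.u (q + 2 * i)))) +
        (finrank k (LinearMap.ker (G.u (q + 2 * i))) -
          finrank k (tor G.u (q + 2 * i) ⊓ LinearMap.ker (G.u (q + 2 * i)) :
            Submodule k (F (q + 2 * i))))) = 0 := by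
    refine Finset.sum_eq_zero fun i _ => ?_
    rw [tor_inf_range, inf_eq_right.2 (ker_le_tor G.u (q + 2 * i))]
    omega
  have e10 : tor G.u (q + 2 * m) = ⊥ := by
    rw [eq_bot_iff]
    intro x hx
    exact hN₁ _ (by omega) x ((mem_tor_iff L).1 hx)
  have e11 : ∑ i ∈ Finset.range (m + 1), kap G (q + 2 * i) = 0 := by
    refine Finset.sum_eq_zero fun i _ => ?_
    have hk : ∀ n, n % 2 = q → kap G n = 0 := by
      intro n hn
      cases n with
      | zero => rfl
      | succ n =>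
        change finrank k (LinearMap.ker (G.u n)) = 0
        have : LinearMap.ker (G.u n) = ⊥ := by
          rw [eq_bot_iff]
          intro x hx
          exact hT n (by omega) x (ker_le_tor G.u n hx)
        rw [this, finrank_bot]
    exact hk _ (by omega)
  have e12 : ∑ i ∈ Finset.range (m + 1), finrank k ((tor G.u (q + 2 * i)).map (G.π (q + 2 * i))) =
      ∑ i ∈ Finset.range (m + 1), finrank k (torE G (q + 2 * i)) := rfl
  beta_reduce at e6
  rw [e9, e10, finrank_bot, e12] at e6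
  rw [e8, e11] at e5
  rw [e1, e2] at hR
  omega

/-! ### The window -/

namespace PSysB

variable {k : Type} [Field k] {p : ℕ} {crit : Set ℝ} {K : ℕ} {B0 B1 : ℝ}
  (S : PSysB k p crit K B0 B1)

/-- the pieces of the equality case that are used on the window -/
structure Eq (t : ℝ) : Prop where
  pos : 0 < t
  reg : t ∉ crit
  odd : ∀ e, e % 2 ≠ S.q → ∀ x, x ∈ tor (S.G t).u e → x = 0
  even : ∀ e, e % 2 = S.q → tor (S.G t).u e ≤ LinearMap.range (S.rF t e)

variable {S}

theorem loc_inj {s t : ℝ} (hs : S.Eq s) (ht : S.Eq t) (hst : s ≤ t) (hp : 0 < p)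
    (hc : ∀ x ∈ Icc (s / p) (t / p), x ∉ crit) {e : ℕ} {x : S.F t e}
    (hx : S.ρF s t hst e x ∈ tor (S.G s).u e) : x ∈ tor (S.G t).u e := by
  have hp' : (0 : ℝ) < p := by exact_mod_cast hp
  have h' : s / p ≤ t / p := by gcongr
  rw [mem_tor_iff (S.L s hs.pos hs.reg)] at hx
  rw [mem_tor_iff (S.L t ht.pos ht.reg)]
  intro j
  have h1 := hx j
  rw [S.ℓ_ρ s t hs.pos hs.reg ht.pos ht.reg hst h'] at h1
  have h2 := (S.reg (s / p) (t / p) h' (div_pos hs.pos hp') hc j).1
  exact h2 (by rw [h1, map_zero])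

theorem tor_onto {s t : ℝ} (hs : S.Eq s) (ht : S.Eq t) (hst : s ≤ t) (hp : 0 < p)
    (hc : ∀ x ∈ Icc (s / p) (t / p), x ∉ crit) {e : ℕ} (y : S.F s e)
    (hy : y ∈ tor (S.G s).u e) : ∃ x ∈ tor (S.G t).u e, S.ρF s t hst e x = y := by
  by_cases h : e % 2 = S.q
  · obtain ⟨f, rfl⟩ := hs.even e h hy
    refine ⟨S.rF t e f, ?_, S.ρF_rF s t hst e f⟩
    apply loc_inj hs ht hst hp hc
    rw [S.ρF_rF]
    exact hy
  · refine ⟨0, Submodule.zero_mem _, ?_⟩
    rw [map_zero, hs.odd e h y hy]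

/-- `Dd` does not change across at most one critical level -/
theorem Dd_step {s t : ℝ} (hs : S.Eq s) (ht : S.Eq t) (hst : s ≤ t) (hp : 0 < p)
    (hc : ∀ x ∈ Icc (s / p) (t / p), x ∉ crit) (h1 : (crit ∩ Ioo s t).Subsingleton) (n : ℕ) :
    (S.I t).Dd n = (S.I s).Dd n := by
  obtain ⟨T⟩ := S.rel s t hst hs.pos hs.reg ht.reg h1
  have i1 := S.finH t ht.pos ht.reg
  have i2 := S.finH s hs.pos hs.reg
  have i3 := fin_F (S.G t)
  have i4 := fin_F (S.G s)
  -- the terms of the relative sequence: degree `0` is irrelevant, replace it by the range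
  have i5 : ∀ n, FiniteDimensional k (T.R (n + 1)) := by
    intro n
    have h : Function.Exact (T.δ n) (T.j (n + 1)).rangeRestrict := by
      intro y
      rw [← T.ex3 n y]
      exact ⟨fun h => congrArg Subtype.val h, fun h => Subtype.ext h⟩
    exact Module.Finite.of_exact h (LinearMap.surjective_rangeRestrict _)
  refine Dd_eq' (S.I t) (S.I s) S.two_ne T.rR T.rR2 T.j (S.ρF s t hst) T.δ T.hj
    (S.ρF_r s t hst) T.hδ (S.ρF_u s t hst) T.ex1 T.ex2 T.ex3 T.chi0 ?_ ?_ n
  · intro n x hx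
    apply loc_inj hs ht hst hp hc
    rw [hx]
    exact Submodule.zero_mem _
  · intro n y hy
    exact tor_onto hs ht hst hp hc y hy

/-- `Dd` is constant on the window -/
theorem Dd_const (hf : ∀ t, (crit ∩ Iic t).Finite) (hp : 0 < p) {α β : ℝ}
    (hE : ∀ t ∈ Ioo α β, t ∉ crit → S.Eq t) (hc : ∀ x ∈ Ioo α β, x / p ∉ crit) {s t : ℝ}
    (hs : s ∈ Ioo α β) (ht : t ∈ Ioo α β) (hst : s < t) (hs' : s ∉ crit) (ht' : t ∉ crit)
    (n : ℕ) : (S.I s).Dd n = (S.I t).Dd n := by
  have hp' : (0 : ℝ) < p := by exact_mod_cast hp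
  refine chain hf (fun t => (S.I t).Dd n) ?_ s t hs ht hst hs' ht'
  intro s t hs ht hst hs' ht' h1
  refine (Dd_step (hE s hs hs') (hE t ht ht') hst.le hp ?_ h1 n).symm
  intro x hx hxc
  have h2 : x * p ∈ Ioo α β := by
    constructor
    · have := (div_le_iff₀ hp').1 hx.1
      linarith [hs.1]
    · have := (le_div_iff₀ hp').1 hx.2
      linarith [ht.2]
  apply hc (x * p) h2
  rwa [mul_div_cancel_right₀ _ hp'.ne']

/-! ### The assembly -/

theorem rinf_le {t : ℝ} (ht : 0 < t) (ht' : t ∉ crit) : Rinf k (S.rH t) S.q ≤ K := by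
  obtain ⟨N, hN⟩ := S.topH t ht ht'
  unfold Rinf
  rw [finsum_eq_sum_of_support_subset (s := Finset.range N)]
  · refine le_trans (Finset.sum_le_sum fun n _ => ?_) (S.bars t ht ht' N)
    split_ifs
    · exact le_rfl
    · exact Nat.zero_le _
  · intro n hn
    rw [Finset.coe_range, mem_Iio]
    by_contra h
    apply hn
    have := hN n (not_lt.1 h)
    have h1 : finrank k (S.H t n) = 0 := finrank_zero_of_subsingleton
    simp only [h1, Nat.zero_sub, ite_self]

theorem rinf_const {s t : ℝ} (hs : 0 < s) (hst : s ≤ t) (h : ∀ x ∈ Icc s t, x ∉ crit) :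
    Rinf k (S.rH s) S.q = Rinf k (S.rH t) S.q := by
  unfold Rinf
  congr 1
  ext n
  have hb := S.reg s t hst hs h n
  have h1 : finrank k (S.H t n) = finrank k (S.H s n) :=
    LinearEquiv.finrank_eq (LinearEquiv.ofBijective _ hb)
  have h2 : LinearMap.range (S.rH s n) = (LinearMap.range (S.rH t n)).map (S.ρH s t hst n) := by
    ext y
    constructor
    · rintro ⟨x, rfl⟩
      exact ⟨_, ⟨x, rfl⟩, S.ρH_rH s t hst n x⟩
    · rintro ⟨_, ⟨x, rfl⟩, rfl⟩
      exact ⟨x, (S.ρH_rH s t hst n x).symm⟩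
  have h3 : finrank k (LinearMap.range (S.rH s n)) = finrank k (LinearMap.range (S.rH t n)) := by
    rw [h2]
    exact (LinearEquiv.finrank_eq (Submodule.equivMapOfInjective _ hb.1 _)).symm
  rw [h1, h3]

/-! ### The traces -/

/-- trace of an involution on a line -/
theorem chiOn_line {A : Type} [AddCommGroup A] [Module k A] (h2 : (2 : k) ≠ 0) {r : A →ₗ[k] A}
    (hr : ∀ x, r (r x) = x) {W : Submodule k A} (hW : ∀ x ∈ W, r x ∈ W)
    (h1 : finrank k W = 1) : chiOn r W = 1 ∨ chiOn r W = -1 := by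
  obtain ⟨⟨v, hv⟩, hv0, hvs⟩ := finrank_eq_one_iff'.1 h1
  have hv0' : v ≠ 0 := fun h => hv0 (Subtype.ext h)
  have hspan : W = Submodule.span k {v} := by
    apply le_antisymm
    · intro x hx
      obtain ⟨c, hc⟩ := hvs ⟨x, hx⟩
      have h3 : c • v = x := congrArg Subtype.val hc
      rw [← h3]
      exact Submodule.smul_mem _ _ (Submodule.mem_span_singleton_self _)
    · rw [Submodule.span_singleton_le_iff_mem]
      exact hv
  obtain ⟨c, hc⟩ := hvs ⟨r v, hW v hv⟩
  have h3 : c • v = r v := congrArg Subtype.val hc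
  have h4 : (c * c) • v = v := by
    have h5 := hr v
    rw [← h3, map_smul, ← h3, smul_smul] at h5
    exact h5
  have h5 : c * c = 1 := by
    have h6 : (c * c - 1) • v = 0 := by rw [sub_smul, h4, one_smul, sub_self]
    rcases smul_eq_zero.1 h6 with h | h
    · exact sub_eq_zero.1 h
    · exact absurd h hv0'
  rcases mul_self_eq_one_iff.1 h5 with h | h
  · left
    rw [hspan]
    refine chiOn_span_singleton h2 hv0' (Or.inl rfl) ?_
    rw [← h3, h]
    simp
  · right
    rw [hspan]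
    refine chiOn_span_singleton h2 hv0' (Or.inr rfl) ?_
    rw [← h3, h]
    simp

theorem torE_le {t : ℝ} (ht : S.Eq t) {n : ℕ} (hn : n % 2 = S.q) :
    torE (S.G t) n ≤ LinearMap.range (S.rH t n) := by
  rintro _ ⟨y, hy, rfl⟩
  obtain ⟨f, rfl⟩ := ht.even _ hn hy
  rw [S.π_rF]
  exact ⟨_, rfl⟩

theorem torE_odd {t : ℝ} (ht : S.Eq t) {n : ℕ} (hn : n % 2 ≠ S.q) :
    torE (S.G t) n = ⊥ := by
  have h1 : tor (S.G t).u n = ⊥ := by
    rw [eq_bot_iff]
    intro x hx
    exact ht.odd n hn x hx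
  rw [torE, h1, Submodule.map_bot]

theorem chi_n {t : ℝ} (ht : S.Eq t) {n : ℕ} (hn : 2 ≤ n) (hq : (n + 1) % 2 = S.q) :
    chi ((S.I t).rE n) = (S.I t).Dd n + (S.I t).Dd (n - 2) +
      chiOn ((S.I t).rE (n + 1)) (torE (S.G t) (n + 1)) := by
  have i1 := S.finH t ht.pos ht.reg
  have i3 := fin_F (S.G t)
  have h0 : torE (S.G t) n = ⊥ := torE_odd ht (by have := S.q_lt; omega)
  have h2 := PSys.chi_E_eq' (S.I t) S.two_ne n hn
  rw [h0, chiOn_bot, add_zero] at h2
  exact h2

theorem rH_zero {s t : ℝ} (hst : s ≤ t) {n : ℕ} (h : S.rH t n = 0) : S.rH s n = 0 := by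
  ext x
  rw [← S.ρH_rH s t hst, h]
  simp

/-- torsion born between `s` and `t` in degree `n + 1` forces cohomology in degree `n` -/
theorem finrank_ge (hf : ∀ t, (crit ∩ Iic t).Finite) (hp : 0 < p) {α β : ℝ}
    (hE : ∀ t ∈ Ioo α β, t ∉ crit → S.Eq t) (hc : ∀ x ∈ Ioo α β, x / p ∉ crit) {s t : ℝ}
    (hs : s ∈ Ioo α β) (ht : t ∈ Ioo α β) (hst : s < t) (hs' : s ∉ crit) (ht' : t ∉ crit)
    {n : ℕ} (hn : 2 ≤ n) (hq : (n + 1) % 2 = S.q) (h0 : torE (S.G s) (n + 1) = ⊥)
    (h1 : torE (S.G t) (n + 1) ≠ ⊥) :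
    1 ≤ finrank k (S.H s n) + finrank k (S.H t n) := by
  have es := hE s hs hs'
  have et := hE t ht ht'
  have a1 := chi_n es hn hq
  have a2 := chi_n et hn hq
  rw [h0, chiOn_bot] at a1
  have a3 := Dd_const hf hp hE hc hs ht hst hs' ht' n
  have a4 := Dd_const hf hp hE hc hs ht hst hs' ht' (n - 2)
  have i1 := S.finH t et.pos et.reg
  have i2 := S.finH s es.pos es.reg
  have h2 : finrank k (torE (S.G t) (n + 1)) = 1 := by
    have h3 := (Submodule.finrank_mono (torE_le et hq)).trans (S.rk _ hq t et.pos et.reg)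
    have h4 : finrank k (torE (S.G t) (n + 1)) ≠ 0 := fun h => h1 (Submodule.finrank_eq_zero.1 h)
    omega
  have h5 : chiOn ((S.I t).rE (n + 1)) (torE (S.G t) (n + 1)) = 1 ∨
      chiOn ((S.I t).rE (n + 1)) (torE (S.G t) (n + 1)) = -1 := by
    refine chiOn_line S.two_ne ((S.I t).rE2 (n + 1)) ?_ h2
    rintro _ ⟨y, hy, rfl⟩
    exact ⟨(S.I t).rF (n + 1) y, (S.I t).tor_mem (n + 1) hy, ((S.I t).hπ (n + 1) y).symm⟩
  by_contra hcon
  have b1 : finrank k (S.H s n) = 0 := by omega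
  have b2 : finrank k (S.H t n) = 0 := by omega
  have : Subsingleton (S.H s n) := finrank_zero_iff.1 b1
  have : Subsingleton (S.H t n) := finrank_zero_iff.1 b2
  rw [chi_subsingleton] at a1 a2
  omega

/-- the cohomology in degrees without global classes is bounded by the finite bars -/
theorem sum_finrank_le {t : ℝ} (ht : 0 < t) (ht' : t ∉ crit) (A : Finset ℕ)
    (hA : ∀ n ∈ A, S.rH t n = 0) : ∑ n ∈ A, finrank k (S.H t n) ≤ K := by
  classical
  have h1 : ∀ n ∈ A, finrank k (S.H t n) =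
      finrank k (S.H t n) - finrank k (LinearMap.range (S.rH t n)) := by
    intro n hn
    rw [hA n hn, LinearMap.range_zero, finrank_bot, Nat.sub_zero]
  obtain ⟨m, hm⟩ : ∃ m, ∀ i ∈ A, i < m := by
    obtain ⟨m, hm⟩ := A.bddAbove
    exact ⟨m + 1, fun i hi => Nat.lt_succ_of_le (hm hi)⟩
  calc ∑ n ∈ A, finrank k (S.H t n)
      = ∑ n ∈ A, (finrank k (S.H t n) - finrank k (LinearMap.range (S.rH t n))) :=
        Finset.sum_congr rfl h1
    _ ≤ ∑ n ∈ Finset.range m, (finrank k (S.H t n) - finrank k (LinearMap.range (S.rH t n))) := by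
        apply Finset.sum_le_sum_of_subset
        intro n hn
        exact Finset.mem_range.2 (hm n hn)
    _ ≤ K := S.bars t ht ht' m

/-- the ranks of the global classes increase -/
theorem rk_mono {s t : ℝ} (hst : s ≤ t) (ht : 0 < t) (ht' : t ∉ crit) (n : ℕ) :
    finrank k (LinearMap.range (S.rH s n)) ≤ finrank k (LinearMap.range (S.rH t n)) := by
  have i1 := S.finH t ht ht' n
  have h2 : LinearMap.range (S.rH s n) = (LinearMap.range (S.rH t n)).map (S.ρH s t hst n) := by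
    ext y
    constructor
    · rintro ⟨x, rfl⟩
      exact ⟨_, ⟨x, rfl⟩, S.ρH_rH s t hst n x⟩
    · rintro ⟨_, ⟨x, rfl⟩, rfl⟩
      exact ⟨x, (S.ρH_rH s t hst n x).symm⟩
  rw [h2]
  exact Submodule.finrank_map_le _ _

theorem rk_eq {s t : ℝ} (hst : s ≤ t) (hb : ∀ n, Function.Bijective (S.ρH s t hst n)) (n : ℕ) :
    finrank k (LinearMap.range (S.rH s n)) = finrank k (LinearMap.range (S.rH t n)) := by
  have h2 : LinearMap.range (S.rH s n) = (LinearMap.range (S.rH t n)).map (S.ρH s t hst n) := by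
    ext y
    constructor
    · rintro ⟨x, rfl⟩
      exact ⟨_, ⟨x, rfl⟩, S.ρH_rH s t hst n x⟩
    · rintro ⟨_, ⟨x, rfl⟩, rfl⟩
      exact ⟨x, (S.ρH_rH s t hst n x).symm⟩
  rw [h2]
  exact (LinearEquiv.finrank_eq (Submodule.equivMapOfInjective _ (hb n).1 _)).symm

/-- **the count**: the number of degrees of parity `q` in which a class is born between `s` and
`t` is at most `2 K + 2` -/
theorem births_le (hf : ∀ t, (crit ∩ Iic t).Finite) (hp : 0 < p) (hpc : ∀ a ∈ crit, (p : ℝ) * a ∈ crit)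
    {α β : ℝ} (hE : ∀ t ∈ Ioo α β, t ∉ crit → S.Eq t) (hc : ∀ x ∈ Ioo α β, x / p ∉ crit)
    (hR : ∀ t ∈ Ioo α β, t ∉ crit → Rinf k (S.rH t) S.q = Rinf k (S.rH (t / p)) S.q) {s t : ℝ}
    (hs : s ∈ Ioo α β) (ht : t ∈ Ioo α β) (hst : s < t) (hs' : s ∉ crit) (ht' : t ∉ crit)
    (A : Finset ℕ) (hAq : ∀ n ∈ A, n % 2 = S.q) (hAs : ∀ n ∈ A, S.rH s n = 0)
    (hAt : ∀ n ∈ A, S.rH t n ≠ 0) : A.card ≤ 2 * K + 2 := by
  classical
  have hp' : (0 : ℝ) < p := by exact_mod_cast hp
  have es := hE s hs hs'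
  have et := hE t ht ht'
  have hsp : s / p ∉ crit := fun h => hs' (by
    have := hpc _ h
    rwa [mul_div_cancel₀ s hp'.ne'] at this)
  have htp : t / p ∉ crit := fun h => ht' (by
    have := hpc _ h
    rwa [mul_div_cancel₀ t hp'.ne'] at this)
  have hsp0 : 0 < s / p := div_pos es.pos hp'
  have htp0 : 0 < t / p := div_pos et.pos hp'
  have hstp : s / p ≤ t / p := by gcongr
  have i1 := S.finH t et.pos et.reg
  have i2 := S.finH s es.pos es.reg
  have i3 := fin_F (S.G t)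
  have i4 := fin_F (S.G s)
  have i5 := S.finH (t / p) htp0 htp
  have i6 := S.finH (s / p) hsp0 hsp
  obtain ⟨M1, hM1⟩ := torsion_count (S.G s) (S.L s es.pos es.reg) (S.rH s) (S.rH (s / p))
    (S.topH s es.pos es.reg) (S.topH (s / p) hsp0 hsp) S.q S.q_lt (hR s hs hs') es.odd
  obtain ⟨M2, hM2⟩ := torsion_count (S.G t) (S.L t et.pos et.reg) (S.rH t) (S.rH (t / p))
    (S.topH t et.pos et.reg) (S.topH (t / p) htp0 htp) S.q S.q_lt (hR t ht ht') et.odd
  obtain ⟨M3, hM3⟩ : ∃ m, ∀ i ∈ A, i < m := by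
    obtain ⟨m, hm⟩ := A.bddAbove
    exact ⟨m + 1, fun i hi => Nat.lt_succ_of_le (hm hi)⟩
  set m := M1 + M2 + M3 with hm
  have c1 := hM1 m (by omega)
  have c2 := hM2 m (by omega)
  have hcI : ∀ x ∈ Icc (s / p) (t / p), x ∉ crit := by
    intro x hx hxc
    have h2 : x * p ∈ Ioo α β := by
      constructor
      · have := (div_le_iff₀ hp').1 hx.1
        linarith [hs.1]
      · have := (le_div_iff₀ hp').1 hx.2
        linarith [ht.2]
    apply hc (x * p) h2
    rwa [mul_div_cancel_right₀ _ hp'.ne']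
  have c3 : ∑ i ∈ Finset.range (m + 1),
        finrank k (LinearMap.range (S.rH (s / p) (S.q + 2 * i))) =
      ∑ i ∈ Finset.range (m + 1), finrank k (LinearMap.range (S.rH (t / p) (S.q + 2 * i))) :=
    Finset.sum_congr rfl fun i _ =>
      rk_eq hstp (fun n => S.reg (s / p) (t / p) hstp hsp0 hcI n) _
  -- the births
  have hq2 := S.q_lt
  set B : Finset ℕ := A.image (fun n => n / 2) with hB
  have hBcard : B.card = A.card := by
    refine Finset.card_image_of_injOn fun a ha b hb h => ?_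
    have h1 := hAq a ha
    have h2 := hAq b hb
    have h3 : a / 2 = b / 2 := h
    omega
  have hBsub : B ⊆ Finset.range (m + 1) := by
    intro i hi
    obtain ⟨n, hn, rfl⟩ := Finset.mem_image.1 hi
    have := hM3 n hn
    rw [Finset.mem_range]
    omega
  have hBrs : ∀ i ∈ B, finrank k (LinearMap.range (S.rH s (S.q + 2 * i))) + 1 ≤
      finrank k (LinearMap.range (S.rH t (S.q + 2 * i))) := by
    intro i hi
    obtain ⟨n, hn, rfl⟩ := Finset.mem_image.1 hi
    have h1 := hAq n hn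
    have h2 : S.q + 2 * (n / 2) = n := by omega
    rw [h2, hAs n hn, LinearMap.range_zero, finrank_bot, zero_add]
    by_contra h
    have h3 : finrank k (LinearMap.range (S.rH t n)) = 0 := by omega
    have h4 := Submodule.finrank_eq_zero.1 h3
    exact hAt n hn (LinearMap.range_eq_bot.1 h4)
  have c4 : ∑ i ∈ Finset.range (m + 1), finrank k (LinearMap.range (S.rH s (S.q + 2 * i))) +
      B.card ≤ ∑ i ∈ Finset.range (m + 1), finrank k (LinearMap.range (S.rH t (S.q + 2 * i))) := by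
    have h1 : B.card = ∑ i ∈ Finset.range (m + 1), if i ∈ B then 1 else 0 := by
      rw [Finset.sum_ite_mem, Finset.inter_eq_right.2 hBsub, Finset.card_eq_sum_ones]
    rw [h1, ← Finset.sum_add_distrib]
    refine Finset.sum_le_sum fun i _ => ?_
    split_ifs with h
    · exact hBrs i h
    · rw [add_zero]
      exact rk_mono hst.le et.pos et.reg _
  -- the new torsion
  set E : Finset ℕ := (Finset.range (m + 1)).filter
    (fun i => torE (S.G s) (S.q + 2 * i) = ⊥ ∧ torE (S.G t) (S.q + 2 * i) ≠ ⊥) with hEdef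
  have c5 : ∑ i ∈ Finset.range (m + 1), finrank k (torE (S.G t) (S.q + 2 * i)) ≤
      ∑ i ∈ Finset.range (m + 1), finrank k (torE (S.G s) (S.q + 2 * i)) + E.card := by
    have h1 : E.card = ∑ i ∈ Finset.range (m + 1), if i ∈ E then 1 else 0 := by
      rw [Finset.sum_ite_mem, Finset.inter_eq_right.2 (Finset.filter_subset _ _),
        Finset.card_eq_sum_ones]
    rw [h1, ← Finset.sum_add_distrib]
    refine Finset.sum_le_sum fun i hi => ?_
    have h2 : finrank k (torE (S.G t) (S.q + 2 * i)) ≤ 1 :=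
      (Submodule.finrank_mono (torE_le et (by omega))).trans (S.rk _ (by omega) t et.pos et.reg)
    split_ifs with h
    · omega
    · have h3 : ¬ (torE (S.G s) (S.q + 2 * i) = ⊥ ∧ torE (S.G t) (S.q + 2 * i) ≠ ⊥) := fun h4 =>
        h (Finset.mem_filter.2 ⟨hi, h4⟩)
      rw [not_and_or, not_not] at h3
      rcases h3 with h3 | h3
      · have h4 : finrank k (torE (S.G s) (S.q + 2 * i)) ≠ 0 := fun h5 =>
          h3 (Submodule.finrank_eq_zero.1 h5)
        omega
      · rw [h3, finrank_bot]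
        omega
  have c6 : A.card ≤ E.card := by omega
  -- split `E`
  set E1 : Finset ℕ := E.filter (fun i => i < 2) with hE1
  set E2 : Finset ℕ := E.filter (fun i => ¬ i < 2) with hE2
  have c7 : E1.card + E2.card = E.card := Finset.card_filter_add_card_filter_not _
  have c8 : E1.card ≤ 2 := by
    have : E1 ⊆ Finset.range 2 := fun i hi => Finset.mem_range.2 (Finset.mem_filter.1 hi).2
    simpa using Finset.card_le_card this
  -- the degrees just below
  have hE2' : ∀ i ∈ E2, torE (S.G s) (S.q + 2 * i - 1 + 1) = ⊥ ∧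
      torE (S.G t) (S.q + 2 * i - 1 + 1) ≠ ⊥ ∧ 2 ≤ S.q + 2 * i - 1 ∧
      (S.q + 2 * i - 1 + 1) % 2 = S.q := by
    intro i hi
    obtain ⟨h1, h2⟩ := Finset.mem_filter.1 hi
    obtain ⟨h3, h4, h5⟩ := Finset.mem_filter.1 h1
    have h6 : S.q + 2 * i - 1 + 1 = S.q + 2 * i := by omega
    rw [h6]
    exact ⟨h4, h5, by omega, by omega⟩
  have hone : ∀ i ∈ E2, 1 ≤ finrank k (S.H s (S.q + 2 * i - 1)) +
      finrank k (S.H t (S.q + 2 * i - 1)) := by
    intro i hi
    obtain ⟨h1, h2, h3, h4⟩ := hE2' i hi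
    exact finrank_ge hf hp hE hc hs ht hst hs' ht' h3 h4 h1 h2
  have hzero : ∀ i ∈ E2, S.rH t (S.q + 2 * i - 1) = 0 := by
    intro i hi
    obtain ⟨h1, h2, h3, h4⟩ := hE2' i hi
    refine S.gap _ h3 h4 t et.pos et.reg fun h => h2 ?_
    rw [eq_bot_iff]
    refine (torE_le et h4).trans ?_
    rw [h, LinearMap.range_zero]
  have hinj : Set.InjOn (fun i => S.q + 2 * i - 1) (E2 : Set ℕ) := by
    intro a ha b hb h
    have h1 := (hE2' a ha).2.2.1
    have h2 := (hE2' b hb).2.2.1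
    have h3 : S.q + 2 * a - 1 = S.q + 2 * b - 1 := h
    omega
  have d1 := sum_finrank_le (S := S) et.pos et.reg (E2.image (fun i => S.q + 2 * i - 1)) (by
    intro n hn
    obtain ⟨i, hi, rfl⟩ := Finset.mem_image.1 hn
    exact hzero i hi)
  have d2 := sum_finrank_le (S := S) es.pos es.reg (E2.image (fun i => S.q + 2 * i - 1)) (by
    intro n hn
    obtain ⟨i, hi, rfl⟩ := Finset.mem_image.1 hn
    exact rH_zero hst.le (hzero i hi))
  rw [Finset.sum_image hinj] at d1 d2
  have d3 : E2.card ≤ ∑ i ∈ E2, (finrank k (S.H s (S.q + 2 * i - 1)) +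
      finrank k (S.H t (S.q + 2 * i - 1))) := by
    rw [Finset.card_eq_sum_ones]
    exact Finset.sum_le_sum hone
  rw [Finset.sum_add_distrib] at d3
  omega

/-- **T5**: a window of equality is short -/
theorem window_short (hf : ∀ t, (crit ∩ Iic t).Finite) (hp : 0 < p)
    (hpc : ∀ a ∈ crit, (p : ℝ) * a ∈ crit) {α β : ℝ} (hα : 0 < α)
    (hE : ∀ t ∈ Ioo α β, t ∉ crit → S.Eq t) (hc : ∀ x ∈ Ioo α β, x / p ∉ crit)
    (hR : ∀ t ∈ Ioo α β, t ∉ crit → Rinf k (S.rH t) S.q = Rinf k (S.rH (t / p)) S.q) :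
    β - α ≤ max B0 0 + 3 + (2 * K + 3) * (max B1 0 + 1) := by
  by_contra hcon
  push Not at hcon
  set b := max B1 0 with hb
  have hb0 : 0 ≤ b := le_max_right _ _
  have hb1 : B1 ≤ b := le_max_left _ _
  set a0 := max B0 0 with ha0
  have ha00 : 0 ≤ a0 := le_max_right _ _
  have ha01 : B0 ≤ a0 := le_max_left _ _
  have hK0 : (0 : ℝ) ≤ K := Nat.cast_nonneg K
  have hpos : 0 ≤ (2 * (K : ℝ) + 3) * (b + 1) := by positivity
  -- the starting point
  obtain ⟨t1, ht1, ht1c⟩ := exists_reg hf (show α + a0 < α + a0 + 1 by linarith)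
  have ht10 : 0 < t1 := by linarith [ht1.1]
  have ht1J : t1 ∈ Ioo α β := ⟨by linarith [ht1.1], by linarith [ht1.2]⟩
  -- the end point
  obtain ⟨t2, ht2, ht2c⟩ := exists_reg hf (show β - 1 < β by linarith)
  have ht2J : t2 ∈ Ioo α β := ⟨by linarith [ht2.1], ht2.2⟩
  have ht20 : 0 < t2 := by linarith [ht2J.1]
  -- the last class alive at `t1`
  obtain ⟨N, hN⟩ := S.topH t1 ht10 ht1c
  have hdead : ∀ i, N ≤ i → S.rH t1 (S.e i) = 0 := by
    intro i hi
    have h1 : N ≤ S.e i := hi.trans (S.e_mono.id_le i)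
    have := hN _ h1
    ext x
    exact Subsingleton.elim _ _
  classical
  let P : ℕ → Prop := fun i => S.rH t1 (S.e i) ≠ 0
  have hP0 : P 0 := S.birth0 t1 (by linarith [ht1.1]) ht1c
  set i0 := Nat.findGreatest P N with hi0
  have hPi0 : P i0 := Nat.findGreatest_spec (Nat.zero_le N) hP0
  have hafter : ∀ i, i0 < i → S.rH t1 (S.e i) = 0 := by
    intro i hi
    by_cases h : i ≤ N
    · by_contra h2
      exact Nat.findGreatest_is_greatest hi h h2
    · exact hdead i (by omega)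
  -- the births
  have hstep : ∀ j : ℕ, ∃ s, t1 ≤ s ∧ s ≤ t1 + j * (b + 1) ∧ s ∉ crit ∧
      S.rH s (S.e (i0 + j)) ≠ 0 := by
    intro j
    induction j with
    | zero => exact ⟨t1, le_rfl, by simp, ht1c, hPi0⟩
    | succ j ih =>
      obtain ⟨s, hs1, hs2, hs3, hs4⟩ := ih
      obtain ⟨s', hs', hs'c⟩ := exists_reg hf (show s + b < s + b + 1 by linarith)
      refine ⟨s', by linarith [hs'.1], ?_, hs'c, ?_⟩
      · push_cast
        linarith [hs'.2]
      · exact S.birth (i0 + j) s s' (by linarith) hs3 hs'c (by linarith [hs'.1]) hs4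
  have hlive : ∀ j : ℕ, j < 2 * K + 3 → S.rH t2 (S.e (i0 + j + 1)) ≠ 0 := by
    intro j hj
    obtain ⟨s, hs1, hs2, hs3, hs4⟩ := hstep j
    refine S.birth (i0 + j) s t2 (by linarith) hs3 ht2c ?_ hs4
    have h1 : (j : ℝ) ≤ 2 * K + 2 := by
      have : j ≤ 2 * K + 2 := by omega
      exact_mod_cast this
    have h2 : (j : ℝ) * (b + 1) ≤ (2 * K + 2) * (b + 1) :=
      mul_le_mul_of_nonneg_right h1 (by linarith)
    have h3 : (2 * (K : ℝ) + 3) * (b + 1) = (2 * K + 2) * (b + 1) + (b + 1) := by ring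
    linarith [ht1.2, ht2.1]
  have ht12 : t1 < t2 := by linarith [ht1.2, ht2.1]
  have hinj : Function.Injective fun j => S.e (i0 + j + 1) := by
    intro a b h
    have := S.e_mono.injective h
    omega
  have h1 := births_le hf hp hpc hE hc hR ht1J ht2J ht12 ht1c ht2c
    ((Finset.range (2 * K + 3)).image fun j => S.e (i0 + j + 1)) (by
      intro n hn
      obtain ⟨j, hj, rfl⟩ := Finset.mem_image.1 hn
      exact S.e_par _) (by
      intro n hn
      obtain ⟨j, hj, rfl⟩ := Finset.mem_image.1 hn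
      exact hafter _ (by omega)) (by
      intro n hn
      obtain ⟨j, hj, rfl⟩ := Finset.mem_image.1 hn
      exact hlive j (Finset.mem_range.1 hj))
  rw [Finset.card_image_of_injective _ hinj, Finset.card_range] at h1
  omega

/-- (*) at the level `t`, and the equality case -/
theorem star {ι : Type} {ℓ : ι → ℝ} {k : Type} [Field k] {p : ℕ}
    (hp : 0 < p) {K : ℕ} {B0 B1 : ℝ} (S : PSysB k p (Crit ℓ) K B0 B1) {t : ℝ} (ht : 0 < t)
    (ht' : t ∉ Crit ℓ) : Rinf k (S.rH (t / p)) S.q ≤ Rinf k (S.rH t) S.q ∧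
    (Rinf k (S.rH t) S.q ≤ Rinf k (S.rH (t / p)) S.q → S.Eq t) := by
  have hp' : (0 : ℝ) < p := by exact_mod_cast hp
  have h0 : 0 < t / p := div_pos ht hp'
  have h1 : t / p ∉ Crit ℓ := by
    intro h
    apply ht'
    have := AS.mul_mem_crit hp h
    rwa [mul_div_cancel₀ t hp'.ne'] at this
  have i1 := S.finH t ht ht'
  have i2 := S.finH (t / p) h0 h1
  have i3 := fin_F (S.G t)
  obtain ⟨h2, h3⟩ := propT12 k S.Hi S.Fi (S.H t) (S.F t) (S.H (t / p)) S.ui S.πi (S.G t)
    (S.L t ht ht') (S.rH t) (S.rF t) (S.rH (t / p)) (S.rF_u t) (S.π_rF t) (S.glob t ht ht')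
    (S.topH t ht ht') (S.topH (t / p) h0 h1) S.q S.q_lt S.lift
  exact ⟨h2, fun h => ⟨ht, ht', (h3 h).1, (h3 h).2⟩⟩

end PSysB

/-- **The algebraic endgame of Theorem B**, version B. -/
theorem tightEndB : TightEndB := by
  intro ι _ ℓ hℓ K B0 B1 hS
  have hf := crit_finite ℓ hℓ
  have key : ∀ p : ℕ, ∃ R : ℝ → ℕ, p.Prime → 2 < p →
      (∀ s : ℝ, 0 < s → s ∉ Crit ℓ → R s ≤ K) ∧
      (∀ s t : ℝ, 0 < s → s ≤ t → (∀ x ∈ Icc s t, x ∉ Crit ℓ) → R s = R t) ∧
      (∀ s : ℝ, 0 < s → s ∉ Crit ℓ → p * s ∉ Crit ℓ → R s ≤ R (p * s)) ∧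
      (∀ α β : ℝ, 0 < α → α < β → (∀ x ∈ Ioo α β, x / p ∉ Crit ℓ) →
        (∀ s ∈ Ioo α β, s ∉ Crit ℓ → R (s / p) = R s) →
        β - α ≤ max B0 0 + 3 + (2 * K + 3) * (max B1 0 + 1)) := by
    intro p
    by_cases hp : p.Prime ∧ 2 < p
    · obtain ⟨k, fk, ⟨S⟩⟩ := hS p hp.1 hp.2
      have hp0 : 0 < p := hp.1.pos
      have hp' : (0 : ℝ) < p := by exact_mod_cast hp0
      refine ⟨fun t => Rinf k (S.rH t) S.q, fun _ _ => ⟨?_, ?_, ?_, ?_⟩⟩
      · intro s hs hs'
        exact PSysB.rinf_le hs hs'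
      · intro s t hs hst h
        exact PSysB.rinf_const hs hst h
      · intro s hs hs' hps
        have h1 := (S.star hp0 (mul_pos hp' hs) hps).1
        rw [mul_div_cancel_left₀ s hp'.ne'] at h1
        exact h1
      · intro α β hα hαβ h1 h2
        refine PSysB.window_short (S := S) hf hp0 (fun a ha => AS.mul_mem_crit hp0 ha) hα ?_ h1 ?_
        · intro t ht ht'
          exact (S.star hp0 (hα.trans ht.1) ht').2 (h2 t ht ht').ge
        · intro t ht ht'
          exact (h2 t ht ht').symm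
    · exact ⟨fun _ => 0, fun h1 h2 => absurd ⟨h1, h2⟩ hp⟩
  choose R hR using key
  exact AS.endgame ℓ hℓ R K (max B0 0 + 3 + (2 * K + 3) * (max B1 0 + 1))
    (fun p h1 h2 => (hR p h1 h2).1) (fun p h1 h2 => (hR p h1 h2).2.1)
    (fun p h1 h2 => (hR p h1 h2).2.2.1) (fun p h1 h2 => (hR p h1 h2).2.2.2)

end Vale.Agent.P216.T695
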