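import Vale.Agent.P216.T695.Iface

set_option linter.unusedSectionVars false

/-!
# Theorem B of P216: the end of the algebraic argument (T5)
-/

open Module Set

namespace Vale.Agent.P216.T695

open Vale.Agent.P216.AS (USeq chi Crit)
open Vale.Agent.P216.Tight923

/-! ### Preliminaries -/

section Pre

variable {k : Type} [Field k] {H F : ℕ → Type}
    [∀ n, AddCommGroup (H n)] [∀ n, Module k (H n)]
    [∀ n, AddCommGroup (F n)] [∀ n, Module k (F n)]

/-- the Gysin sequence gives finiteness of `F` -/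
theorem fin_F (G : USeq k F H) [∀ n, FiniteDimensional k (H n)] : ∀ n, FiniteDimensional k (F n)
  | 0 => Module.Finite.of_injective (G.π 0) G.inj0
  | 1 => Module.Finite.of_injective (G.π 1) G.inj1
  | n + 2 => by
    have := fin_F G n
    have h : Function.Exact (G.u n) (G.π (n + 2)).rangeRestrict := by
      intro y
      rw [← G.ex3 n y]
      exact ⟨fun h => congrArg Subtype.val h, fun h => Subtype.ext h⟩
    exact Module.Finite.of_exact h (LinearMap.surjective_rangeRestrict _)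

/-- the torsion is the kernel of the localisation -/
theorem mem_tor_iff {H' : ℕ → Type} [∀ n, AddCommGroup (H' n)] [∀ n, Module k (H' n)]
    {u : ∀ n, F n →ₗ[k] F (n + 2)} (L : Loc k F H' u) {e : ℕ} {x : F e} :
    x ∈ tor u e ↔ ∀ j, L.ℓ e j x = 0 := by
  rw [mem_tor]
  constructor
  · rintro ⟨N, hN⟩ j
    induction N generalizing e with
    | zero =>
      have : x = 0 := hN
      rw [this, map_zero]
    | succ N ih =>
      rw [← L.ℓ_u]
      exact ih hN
  · intro h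
    obtain ⟨N, hN⟩ := L.inj
    have key : ∀ d e (x : F e), N ≤ e + 2 * d → (∀ j, L.ℓ e j x = 0) → x ∈ torN u d e := by
      intro d
      induction d with
      | zero =>
        intro e x he hx
        exact hN e (by omega) x hx
      | succ d ih =>
        intro e x he hx
        exact ih (e + 2) (u e x) (by omega) fun j => by rw [L.ℓ_u]; exact hx j
    exact ⟨N, key N e x (by omega) h⟩

theorem chi_subsingleton {A : Type} [AddCommGroup A] [Module k A] [Subsingleton A]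
    (r : A →ₗ[k] A) : chi r = 0 := by
  unfold chi
  rw [finrank_zero_of_subsingleton, finrank_zero_of_subsingleton]
  simp

end Pre

theorem crit_finite {ι : Type} [Finite ι] (ℓ : ι → ℝ) (hℓ : ∀ i, 0 < ℓ i) (t : ℝ) :
    (Crit ℓ ∩ Iic t).Finite := by
  have : (⋃ i, (fun m : ℕ => (m : ℝ) * ℓ i) '' {m : ℕ | m ≤ ⌊t / ℓ i⌋₊}).Finite :=
    Set.finite_iUnion fun i => (Set.finite_le_nat _).image _
  refine this.subset ?_
  rintro _ ⟨⟨i, m, hm, rfl⟩, h⟩
  refine mem_iUnion.2 ⟨i, m, ?_, rfl⟩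
  have h1 : (m : ℝ) ≤ t / ℓ i := by
    rw [le_div_iff₀ (hℓ i)]
    exact h
  exact Nat.le_floor h1

/-- regular values are dense -/
theorem exists_reg {crit : Set ℝ} (hf : ∀ t, (crit ∩ Iic t).Finite) {a b : ℝ} (h : a < b) :
    ∃ t ∈ Ioo a b, t ∉ crit := by
  have h1 : (Ioo a b \ (crit ∩ Iic b)).Nonempty := ((Ioo_infinite h).sdiff (hf b)).nonempty
  obtain ⟨t, ht, h2⟩ := h1
  exact ⟨t, ht, fun h3 => h2 ⟨h3, ht.2.le⟩⟩

/-- a function of the regular values which does not change across one critical value is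
constant -/
theorem chain {crit : Set ℝ} (hf : ∀ t, (crit ∩ Iic t).Finite) {α : Type*} (D : ℝ → α)
    {a b : ℝ} (hD : ∀ s t, s ∈ Ioo a b → t ∈ Ioo a b → s < t → s ∉ crit → t ∉ crit →
      (crit ∩ Ioo s t).Subsingleton → D s = D t) :
    ∀ s t, s ∈ Ioo a b → t ∈ Ioo a b → s < t → s ∉ crit → t ∉ crit → D s = D t := by
  have hfin : ∀ s t, (crit ∩ Ioo s t).Finite := fun s t =>
    (hf t).subset fun x hx => ⟨hx.1, hx.2.2.le⟩
  have key : ∀ n : ℕ, ∀ s t, s ∈ Ioo a b → t ∈ Ioo a b → s < t → s ∉ crit → t ∉ crit →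
      (crit ∩ Ioo s t).ncard ≤ n → D s = D t := by
    intro n
    induction n with
    | zero =>
      intro s t hs ht hst hs' ht' hn
      apply hD s t hs ht hst hs' ht'
      have : crit ∩ Ioo s t = ∅ := by
        rw [← Set.ncard_eq_zero (hfin s t)]
        omega
      rw [this]
      exact subsingleton_empty
    | succ n ih =>
      intro s t hs ht hst hs' ht' hn
      by_cases hsub : (crit ∩ Ioo s t).Subsingleton
      · exact hD s t hs ht hst hs' ht' hsub
      · rw [Set.not_subsingleton_iff] at hsub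
        obtain ⟨x, hx, y, hy, hxy⟩ := hsub.exists_lt
        obtain ⟨r, hr, hr'⟩ := exists_reg hf hxy
        have hrI : r ∈ Ioo s t := ⟨hx.2.1.trans hr.1, hr.2.trans hy.2.2⟩
        have hrJ : r ∈ Ioo a b := ⟨hs.1.trans hrI.1, hrI.2.trans ht.2⟩
        have c1 : (crit ∩ Ioo s r).ncard < (crit ∩ Ioo s t).ncard := by
          apply Set.ncard_lt_ncard _ (hfin s t)
          refine ⟨fun z hz => ⟨hz.1, hz.2.1, hz.2.2.trans hrI.2⟩, fun h => ?_⟩
          exact absurd (h hy).2.2 (not_lt.2 hr.2.le)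
        have c2 : (crit ∩ Ioo r t).ncard < (crit ∩ Ioo s t).ncard := by
          apply Set.ncard_lt_ncard _ (hfin s t)
          refine ⟨fun z hz => ⟨hz.1, hrI.1.trans hz.2.1, hz.2.2⟩, fun h => ?_⟩
          exact absurd (h hx).2.1 (not_lt.2 hr.1.le)
        rw [ih s r hs hrJ hrI.1 hs' hr' (by omega), ih r t hrJ ht hrI.2 hr' ht' (by omega)]
  intro s t hs ht hst hs' ht'
  exact key _ s t hs ht hst hs' ht' le_rfl

/-! ### Crossing a critical level -/

/-- `Tight923.Dd_eq`, without finiteness of `R 0` -/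
theorem Dd_eq' {k : Type} [Field k]
    {F E : ℕ → Type} [∀ n, AddCommGroup (F n)] [∀ n, Module k (F n)]
    [∀ n, AddCommGroup (E n)] [∀ n, Module k (E n)]
    {F' E' : ℕ → Type} [∀ n, AddCommGroup (F' n)] [∀ n, Module k (F' n)]
    [∀ n, AddCommGroup (E' n)] [∀ n, Module k (E' n)]
    {R : ℕ → Type} [∀ n, AddCommGroup (R n)] [∀ n, Module k (R n)]
    [∀ n, FiniteDimensional k (F n)] [∀ n, FiniteDimensional k (F' n)]
    [∀ n, FiniteDimensional k (R (n + 1))]
    {S : USeq k F E} {S' : USeq k F' E'} (I : Inv S) (I' : Inv S')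
    (h2 : (2 : k) ≠ 0) (rR : ∀ n, R n →ₗ[k] R n) (rR2 : ∀ n x, rR n (rR n x) = x)
    (j : ∀ n, R n →ₗ[k] F n) (res : ∀ n, F n →ₗ[k] F' n) (δ : ∀ n, F' n →ₗ[k] R (n + 1))
    (hj : ∀ n x, I.rF n (j n x) = j n (rR n x))
    (hres : ∀ n x, I'.rF n (res n x) = res n (I.rF n x))
    (hδ : ∀ n x, rR (n + 1) (δ n x) = δ n (I'.rF n x))
    (hu : ∀ n x, S'.u n (res n x) = res (n + 2) (S.u n x))
    (ex1 : ∀ n, Function.Exact (j n) (res n)) (ex2 : ∀ n, Function.Exact (res n) (δ n))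
    (ex3 : ∀ n, Function.Exact (δ n) (j (n + 1)))
    (hR : ∀ n, chi (rR n) = 0)
    (hker : ∀ n x, res n x = 0 → x ∈ tor S.u n)
    (hsurj : ∀ n, ∀ y ∈ tor S'.u n, ∃ x ∈ tor S.u n, res n x = y) (n : ℕ) :
    I.Dd n = I'.Dd n := by
  have e1 := chiOn_range h2 (rR2 (n + 1)) (j (n + 1)) (hj (n + 1))
  have e2 := chiOn_range h2 (I'.rF2 n) (δ n) (hδ n)
  have e3 := chiOn_range h2 (I.rF2 n) (res n) (hres n)
  rw [LinearMap.exact_iff.1 (ex2 n)] at e2
  rw [LinearMap.exact_iff.1 (ex3 n), ← LinearMap.exact_iff.1 (ex1 (n + 1)), hR (n + 1)] at e1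
  have e4 : ∀ m, chiOn (I'.rF m) (tor S'.u m) =
      chiOn (I.rF m) (tor S.u m) - chiOn (I.rF m) (LinearMap.ker (res m)) := by
    intro m
    have e5 := chiOn_map h2 (S := tor S.u m) (fun x hx => I.tor_mem m hx) (I.rF2 m) (res m)
      (hres m)
    have e6 : (tor S.u m).map (res m) = tor S'.u m := by
      apply le_antisymm
      · rintro _ ⟨x, hx, rfl⟩
        exact map_mem_tor (u := S.u) (w := S'.u) res (fun n x => Or.inl (hu n x)) hx
      · intro y hy
        obtain ⟨x, hx, rfl⟩ := hsurj m y hy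
        exact ⟨x, hx, rfl⟩
    have e7 : tor S.u m ⊓ LinearMap.ker (res m) = LinearMap.ker (res m) :=
      inf_eq_right.2 fun x hx => hker m x (LinearMap.mem_ker.1 hx)
    rwa [e6, e7] at e5
  have e8 := e4 n
  have e9 := e4 (n + 1)
  unfold Inv.Dd
  linarith

/-! ### The window -/

namespace PSys

variable {k : Type} [Field k] {p : ℕ} {crit : Set ℝ} {K : ℕ} {B0 B1 : ℝ}
  (S : PSys k p crit K B0 B1)

/-- the pieces of the equality case that are used on the window -/
structure Eq (t : ℝ) : Prop where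
  pos : 0 < t
  reg : t ∉ crit
  odd : ∀ e, e % 2 ≠ S.q → ∀ x, x ∈ tor (S.G t).u e → x = 0
  even : ∀ e, e % 2 = S.q → tor (S.G t).u e ≤ LinearMap.range (S.rF t e)

variable {S}

theorem loc_inj {s t : ℝ} (hs : S.Eq s) (ht : S.Eq t) (hst : s ≤ t) (hp : 0 < p)
    (hc : ∀ x ∈ Icc (s / p) (t / p), x ∉ crit) {e : ℕ} {x : S.F t e}
    (hx : S.ρF s t hst e x ∈ tor (S.G s).u e) : x ∈ tor (S.G t).u e := by
  have hp' : (0 : ℝ) < p := by exact_mod_cast hp
  have h' : s / p ≤ t / p := by gcongr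
  rw [mem_tor_iff (S.L s hs.pos hs.reg)] at hx
  rw [mem_tor_iff (S.L t ht.pos ht.reg)]
  intro j
  have h1 := hx j
  rw [S.ℓ_ρ s t hs.pos hs.reg ht.pos ht.reg hst h'] at h1
  have h2 := (S.reg (s / p) (t / p) h' (div_pos hs.pos hp') hc j).1
  exact h2 (by rw [h1, map_zero])

theorem tor_onto {s t : ℝ} (hs : S.Eq s) (ht : S.Eq t) (hst : s ≤ t) (hp : 0 < p)
    (hc : ∀ x ∈ Icc (s / p) (t / p), x ∉ crit) {e : ℕ} (y : S.F s e)
    (hy : y ∈ tor (S.G s).u e) : ∃ x ∈ tor (S.G t).u e, S.ρF s t hst e x = y := by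
  by_cases h : e % 2 = S.q
  · obtain ⟨f, rfl⟩ := hs.even e h hy
    refine ⟨S.rF t e f, ?_, S.ρF_rF s t hst e f⟩
    apply loc_inj hs ht hst hp hc
    rw [S.ρF_rF]
    exact hy
  · refine ⟨0, Submodule.zero_mem _, ?_⟩
    rw [map_zero, hs.odd e h y hy]

/-- `Dd` does not change across at most one critical level -/
theorem Dd_step {s t : ℝ} (hs : S.Eq s) (ht : S.Eq t) (hst : s ≤ t) (hp : 0 < p)
    (hc : ∀ x ∈ Icc (s / p) (t / p), x ∉ crit) (h1 : (crit ∩ Ioo s t).Subsingleton) (n : ℕ) :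
    (S.I t).Dd n = (S.I s).Dd n := by
  obtain ⟨T⟩ := S.rel s t hst hs.pos hs.reg ht.reg h1
  have i1 := S.finH t ht.pos ht.reg
  have i2 := S.finH s hs.pos hs.reg
  have i3 := fin_F (S.G t)
  have i4 := fin_F (S.G s)
  -- the terms of the relative sequence: degree `0` is irrelevant, replace it by the range
  have i5 : ∀ n, FiniteDimensional k (T.R (n + 1)) := by
    intro n
    have h : Function.Exact (T.δ n) (T.j (n + 1)).rangeRestrict := by
      intro y
      rw [← T.ex3 n y]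
      exact ⟨fun h => congrArg Subtype.val h, fun h => Subtype.ext h⟩
    exact Module.Finite.of_exact h (LinearMap.surjective_rangeRestrict _)
  refine Dd_eq' (S.I t) (S.I s) S.two_ne T.rR T.rR2 T.j (S.ρF s t hst) T.δ T.hj
    (S.ρF_r s t hst) T.hδ (S.ρF_u s t hst) T.ex1 T.ex2 T.ex3 T.chi0 ?_ ?_ n
  · intro n x hx
    apply loc_inj hs ht hst hp hc
    rw [hx]
    exact Submodule.zero_mem _
  · intro n y hy
    exact tor_onto hs ht hst hp hc y hy

/-- `Dd` is constant on the window -/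
theorem Dd_const (hf : ∀ t, (crit ∩ Iic t).Finite) (hp : 0 < p) {α β : ℝ}
    (hE : ∀ t ∈ Ioo α β, t ∉ crit → S.Eq t) (hc : ∀ x ∈ Ioo α β, x / p ∉ crit) {s t : ℝ}
    (hs : s ∈ Ioo α β) (ht : t ∈ Ioo α β) (hst : s < t) (hs' : s ∉ crit) (ht' : t ∉ crit)
    (n : ℕ) : (S.I s).Dd n = (S.I t).Dd n := by
  have hp' : (0 : ℝ) < p := by exact_mod_cast hp
  refine chain hf (fun t => (S.I t).Dd n) ?_ s t hs ht hst hs' ht'
  intro s t hs ht hst hs' ht' h1
  refine (Dd_step (hE s hs hs') (hE t ht ht') hst.le hp ?_ h1 n).symm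
  intro x hx hxc
  have h2 : x * p ∈ Ioo α β := by
    constructor
    · have := (div_le_iff₀ hp').1 hx.1
      linarith [hs.1]
    · have := (le_div_iff₀ hp').1 hx.2
      linarith [ht.2]
  apply hc (x * p) h2
  rwa [mul_div_cancel_right₀ _ hp'.ne']

/-! ### The traces in the degrees `e i` -/

theorem chi_E_eq' {H F : ℕ → Type} [∀ n, AddCommGroup (H n)] [∀ n, Module k (H n)]
    [∀ n, AddCommGroup (F n)] [∀ n, Module k (F n)] [∀ n, FiniteDimensional k (F n)]
    [∀ n, FiniteDimensional k (H n)] {G : USeq k F H} (I : Inv G) (h2 : (2 : k) ≠ 0) (m : ℕ)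
    (hm : 2 ≤ m) : chi (I.rE m) = I.Dd m + I.Dd (m - 2) + chiOn (I.rE m) (torE G m) +
      chiOn (I.rE (m + 1)) (torE G (m + 1)) := by
  obtain ⟨n, rfl⟩ := Nat.exists_eq_add_of_le' hm
  exact I.chi_E_eq h2 n

/-- at a regular level of the window, the trace in degree `e i` is a constant, plus `ε i` if
`x i` is alive -/
theorem chi_e {t : ℝ} (ht : S.Eq t) {i : ℕ} (hi : S.good i) :
    (S.rH t (S.e i + 1) (S.x i) = 0 → chi ((S.I t).rE (S.e i)) =
      (S.I t).Dd (S.e i) + (S.I t).Dd (S.e i - 2)) ∧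
    (S.rH t (S.e i + 1) (S.x i) ≠ 0 → chi ((S.I t).rE (S.e i)) =
      (S.I t).Dd (S.e i) + (S.I t).Dd (S.e i - 2) + S.ε i) := by
  have i1 := S.finH t ht.pos ht.reg
  have i3 := fin_F (S.G t)
  have h0 : torE (S.G t) (S.e i) = ⊥ := by
    have h1 : tor (S.G t).u (S.e i) = ⊥ := by
      rw [eq_bot_iff]
      intro x hx
      apply ht.odd (S.e i) _ x hx
      have := S.e_par i
      have := S.q_lt
      omega
    rw [torE, h1, Submodule.map_bot]
  have h1 : torE (S.G t) (S.e i + 1) = Submodule.span k {S.rH t (S.e i + 1) (S.x i)} := by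
    apply le_antisymm
    · rintro _ ⟨y, hy, rfl⟩
      obtain ⟨f, rfl⟩ := ht.even _ (S.e_par i) hy
      rw [S.π_rF]
      obtain ⟨c, hc⟩ := S.span i hi (S.πi _ f)
      rw [hc, map_smul]
      exact Submodule.smul_mem _ _ (Submodule.mem_span_singleton_self _)
    · rw [Submodule.span_singleton_le_iff_mem]
      obtain ⟨y, hy1, hy2⟩ := S.xh i hi
      refine ⟨S.rF t _ y, ?_, ?_⟩
      · rw [SetLike.mem_coe, ← u_mem_tor, ← S.rF_u, hy2, map_zero]
        exact Submodule.zero_mem _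
      · rw [S.π_rF, hy1]
  have h2 := chi_E_eq' (S.I t) S.two_ne (S.e i) (S.e_two i)
  rw [h0, chiOn_bot, h1] at h2
  constructor
  · intro h
    rw [h, Submodule.span_singleton_eq_bot.2 rfl, chiOn_bot] at h2
    rw [h2]
    ring
  · intro h
    rw [chiOn_span_singleton S.two_ne h (S.hε i) (S.r_x i hi t ht.pos ht.reg)] at h2
    rw [h2]
    ring

/-- a class born between `s` and `t` forces cohomology in degree `e i` at `s` or at `t` -/
theorem finrank_ge (hf : ∀ t, (crit ∩ Iic t).Finite) (hp : 0 < p) {α β : ℝ}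
    (hE : ∀ t ∈ Ioo α β, t ∉ crit → S.Eq t) (hc : ∀ x ∈ Ioo α β, x / p ∉ crit) {s t : ℝ}
    (hs : s ∈ Ioo α β) (ht : t ∈ Ioo α β) (hst : s < t) (hs' : s ∉ crit) (ht' : t ∉ crit)
    {i : ℕ} (hi : S.good i) (h0 : S.rH s (S.e i + 1) (S.x i) = 0)
    (h1 : S.rH t (S.e i + 1) (S.x i) ≠ 0) :
    1 ≤ finrank k (S.H s (S.e i)) + finrank k (S.H t (S.e i)) := by
  have es := hE s hs hs'
  have et := hE t ht ht'
  have a1 := (chi_e es hi).1 h0
  have a2 := (chi_e et hi).2 h1
  have a3 := Dd_const hf hp hE hc hs ht hst hs' ht' (S.e i)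
  have a4 := Dd_const hf hp hE hc hs ht hst hs' ht' (S.e i - 2)
  by_contra hcon
  have b1 : finrank k (S.H s (S.e i)) = 0 := by omega
  have b2 : finrank k (S.H t (S.e i)) = 0 := by omega
  have i1 := S.finH t et.pos et.reg
  have i2 := S.finH s es.pos es.reg
  have : Subsingleton (S.H s (S.e i)) := finrank_zero_iff.1 b1
  have : Subsingleton (S.H t (S.e i)) := finrank_zero_iff.1 b2
  rw [chi_subsingleton] at a1 a2
  rcases S.hε i with h | h <;> rw [h] at a2 <;> omega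

/-- the cohomology in the degrees `e i`, `i` good, is bounded by the finite bars -/
theorem sum_finrank_le {t : ℝ} (ht : 0 < t) (ht' : t ∉ crit) (A : Finset ℕ)
    (hA : ∀ i ∈ A, S.good i) : ∑ i ∈ A, finrank k (S.H t (S.e i)) ≤ K := by
  classical
  have h1 : ∀ i ∈ A, finrank k (S.H t (S.e i)) =
      finrank k (S.H t (S.e i)) - finrank k (LinearMap.range (S.rH t (S.e i))) := by
    intro i hi
    have : LinearMap.range (S.rH t (S.e i)) = ⊥ := by
      rw [LinearMap.range_eq_bot]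
      ext y
      exact S.gap i (hA i hi) y t ht ht'
    rw [this, finrank_bot, Nat.sub_zero]
  obtain ⟨m, hm⟩ : ∃ m, ∀ i ∈ A, S.e i < m := by
    obtain ⟨m, hm⟩ := (A.image S.e).bddAbove
    refine ⟨m + 1, fun i hi => Nat.lt_succ_of_le (hm ?_)⟩
    simpa using ⟨i, hi, rfl⟩
  calc ∑ i ∈ A, finrank k (S.H t (S.e i))
      = ∑ i ∈ A, (finrank k (S.H t (S.e i)) -
          finrank k (LinearMap.range (S.rH t (S.e i)))) := Finset.sum_congr rfl h1
    _ = ∑ n ∈ A.image S.e, (finrank k (S.H t n) - finrank k (LinearMap.range (S.rH t n))) := by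
        rw [Finset.sum_image fun i _ j _ h => S.e_mono.injective h]
    _ ≤ ∑ n ∈ Finset.range m, (finrank k (S.H t n) - finrank k (LinearMap.range (S.rH t n))) := by
        apply Finset.sum_le_sum_of_subset
        intro n hn
        obtain ⟨i, hi, rfl⟩ := Finset.mem_image.1 hn
        exact Finset.mem_range.2 (hm i hi)
    _ ≤ K := S.bars t ht ht' m

/-- **T5**: a window of equality is short -/
theorem window_short (hf : ∀ t, (crit ∩ Iic t).Finite) (hp : 0 < p) {α β : ℝ} (hα : 0 < α)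
    (hE : ∀ t ∈ Ioo α β, t ∉ crit → S.Eq t) (hc : ∀ x ∈ Ioo α β, x / p ∉ crit) :
    β - α ≤ max B0 0 + 3 + (4 * K + 4) * (max B1 0 + 1) := by
  by_contra hcon
  push Not at hcon
  set b := max B1 0 with hb
  have hb0 : 0 ≤ b := le_max_right _ _
  have hb1 : B1 ≤ b := le_max_left _ _
  set a0 := max B0 0 with ha0
  have ha00 : 0 ≤ a0 := le_max_right _ _
  have ha01 : B0 ≤ a0 := le_max_left _ _
  have hK0 : (0 : ℝ) ≤ K := Nat.cast_nonneg K
  have hpos : 0 ≤ (4 * (K : ℝ) + 4) * (b + 1) := by positivity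
  -- the starting point
  obtain ⟨t1, ht1, ht1c⟩ := exists_reg hf (show α + a0 < α + a0 + 1 by linarith)
  have ht10 : 0 < t1 := by linarith [ht1.1]
  have ht1J : t1 ∈ Ioo α β := ⟨by linarith [ht1.1], by linarith [ht1.2]⟩
  -- the end point
  obtain ⟨t2, ht2, ht2c⟩ := exists_reg hf (show β - 1 < β by linarith)
  have ht2J : t2 ∈ Ioo α β := ⟨by linarith [ht2.1], ht2.2⟩
  have ht20 : 0 < t2 := by linarith [ht2J.1]
  -- the last class alive at `t1`
  obtain ⟨N, hN⟩ := S.topH t1 ht10 ht1c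
  have hdead : ∀ i, N ≤ i → S.rH t1 (S.e i + 1) (S.x i) = 0 := by
    intro i hi
    have h1 : N ≤ S.e i + 1 := (hi.trans (S.e_mono.id_le i)).trans (Nat.le_succ _)
    have := hN _ h1
    exact Subsingleton.elim _ _
  classical
  let P : ℕ → Prop := fun i => S.rH t1 (S.e i + 1) (S.x i) ≠ 0
  have hP0 : P 0 := S.birth0 t1 (by linarith [ht1.1]) ht1c
  set i0 := Nat.findGreatest P N with hi0
  have hPi0 : P i0 := Nat.findGreatest_spec (Nat.zero_le N) hP0
  have hafter : ∀ i, i0 < i → S.rH t1 (S.e i + 1) (S.x i) = 0 := by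
    intro i hi
    by_cases h : i ≤ N
    · by_contra h2
      exact Nat.findGreatest_is_greatest hi h h2
    · exact hdead i (by omega)
  -- the births
  have hstep : ∀ j : ℕ, ∃ s, t1 ≤ s ∧ s ≤ t1 + j * (b + 1) ∧ s ∉ crit ∧
      S.rH s (S.e (i0 + j) + 1) (S.x (i0 + j)) ≠ 0 := by
    intro j
    induction j with
    | zero => exact ⟨t1, le_rfl, by simp, ht1c, hPi0⟩
    | succ j ih =>
      obtain ⟨s, hs1, hs2, hs3, hs4⟩ := ih
      obtain ⟨s', hs', hs'c⟩ := exists_reg hf (show s + b < s + b + 1 by linarith)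
      refine ⟨s', by linarith [hs'.1], ?_, hs'c, ?_⟩
      · push_cast
        linarith [hs'.2]
      · exact S.birth (i0 + j) s s' (by linarith) hs3 hs'c (by linarith [hs'.1]) hs4
  have hlive : ∀ j : ℕ, j < 4 * K + 4 →
      S.rH t2 (S.e (i0 + j + 1) + 1) (S.x (i0 + j + 1)) ≠ 0 := by
    intro j hj
    obtain ⟨s, hs1, hs2, hs3, hs4⟩ := hstep j
    refine S.birth (i0 + j) s t2 (by linarith) hs3 ht2c ?_ hs4
    have h1 : (j : ℝ) ≤ 4 * K + 3 := by
      have : j ≤ 4 * K + 3 := by omega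
      exact_mod_cast this
    have h2 : (j : ℝ) * (b + 1) ≤ (4 * K + 3) * (b + 1) :=
      mul_le_mul_of_nonneg_right h1 (by linarith)
    have h3 : (4 * (K : ℝ) + 4) * (b + 1) = (4 * K + 3) * (b + 1) + (b + 1) := by ring
    linarith [ht1.2, ht2.1]
  have ht12 : t1 < t2 := by linarith [ht1.2, ht2.1]
  -- the good classes
  have hgood : ∀ l : ℕ, ∃ i, (i = i0 + 2 * l + 1 ∨ i = i0 + 2 * l + 2) ∧ S.good i := by
    intro l
    rcases S.good_or (i0 + 2 * l + 1) with h | h
    · exact ⟨_, Or.inl rfl, h⟩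
    · exact ⟨_, Or.inr rfl, h⟩
  choose g hg1 hg2 using hgood
  have hginj : Function.Injective g := by
    intro l l' h
    have h1 := hg1 l
    have h2 := hg1 l'
    rw [h] at h1
    omega
  set A : Finset ℕ := (Finset.range (2 * K + 1)).image g with hA
  have hAcard : A.card = 2 * K + 1 := by
    rw [hA, Finset.card_image_of_injective _ hginj, Finset.card_range]
  have hAgood : ∀ i ∈ A, S.good i := by
    intro i hi
    obtain ⟨l, _, rfl⟩ := Finset.mem_image.1 hi
    exact hg2 l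
  have hone : ∀ i ∈ A, 1 ≤ finrank k (S.H t1 (S.e i)) + finrank k (S.H t2 (S.e i)) := by
    intro i hi
    obtain ⟨l, hl, rfl⟩ := Finset.mem_image.1 hi
    have hl' := Finset.mem_range.1 hl
    refine finrank_ge hf hp hE hc ht1J ht2J ht12 ht1c ht2c (hg2 l) (hafter _ ?_) ?_
    · rcases hg1 l with h | h <;> omega
    · rcases hg1 l with h | h
      · rw [h]; exact hlive (2 * l) (by omega)
      · rw [h]; exact hlive (2 * l + 1) (by omega)
  have h1 : A.card ≤ ∑ i ∈ A, (finrank k (S.H t1 (S.e i)) + finrank k (S.H t2 (S.e i))) := by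
    rw [Finset.card_eq_sum_ones]
    exact Finset.sum_le_sum hone
  rw [Finset.sum_add_distrib] at h1
  have h2 := sum_finrank_le (S := S) ht10 ht1c A hAgood
  have h3 := sum_finrank_le (S := S) ht20 ht2c A hAgood
  omega

/-! ### The assembly -/

theorem rinf_le {t : ℝ} (ht : 0 < t) (ht' : t ∉ crit) : Rinf k (S.rH t) S.q ≤ K := by
  obtain ⟨N, hN⟩ := S.topH t ht ht'
  unfold Rinf
  rw [finsum_eq_sum_of_support_subset (s := Finset.range N)]
  · refine le_trans (Finset.sum_le_sum fun n _ => ?_) (S.bars t ht ht' N)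
    split_ifs
    · exact le_rfl
    · exact Nat.zero_le _
  · intro n hn
    rw [Finset.coe_range, mem_Iio]
    by_contra h
    apply hn
    have := hN n (not_lt.1 h)
    have h1 : finrank k (S.H t n) = 0 := finrank_zero_of_subsingleton
    simp only [h1, Nat.zero_sub, ite_self]

theorem rinf_const {s t : ℝ} (hs : 0 < s) (hst : s ≤ t) (h : ∀ x ∈ Icc s t, x ∉ crit) :
    Rinf k (S.rH s) S.q = Rinf k (S.rH t) S.q := by
  unfold Rinf
  congr 1
  ext n
  have hb := S.reg s t hst hs h n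
  have h1 : finrank k (S.H t n) = finrank k (S.H s n) :=
    LinearEquiv.finrank_eq (LinearEquiv.ofBijective _ hb)
  have h2 : LinearMap.range (S.rH s n) = (LinearMap.range (S.rH t n)).map (S.ρH s t hst n) := by
    ext y
    constructor
    · rintro ⟨x, rfl⟩
      exact ⟨_, ⟨x, rfl⟩, S.ρH_rH s t hst n x⟩
    · rintro ⟨_, ⟨x, rfl⟩, rfl⟩
      exact ⟨x, (S.ρH_rH s t hst n x).symm⟩
  have h3 : finrank k (LinearMap.range (S.rH s n)) = finrank k (LinearMap.range (S.rH t n)) := by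
    rw [h2]
    exact (LinearEquiv.finrank_eq (Submodule.equivMapOfInjective _ hb.1 _)).symm
  rw [h1, h3]

end PSys

/-- (*) at the level `t`, and the equality case -/
theorem PSys.star (h12 : PropT12) {ι : Type} {ℓ : ι → ℝ} {k : Type} [Field k] {p : ℕ}
    (hp : 0 < p) {K : ℕ} {B0 B1 : ℝ} (S : PSys k p (Crit ℓ) K B0 B1) {t : ℝ} (ht : 0 < t)
    (ht' : t ∉ Crit ℓ) : Rinf k (S.rH (t / p)) S.q ≤ Rinf k (S.rH t) S.q ∧
    (Rinf k (S.rH t) S.q ≤ Rinf k (S.rH (t / p)) S.q → S.Eq t) := by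
  have hp' : (0 : ℝ) < p := by exact_mod_cast hp
  have h0 : 0 < t / p := div_pos ht hp'
  have h1 : t / p ∉ Crit ℓ := by
    intro h
    apply ht'
    have := AS.mul_mem_crit hp h
    rwa [mul_div_cancel₀ t hp'.ne'] at this
  have i1 := S.finH t ht ht'
  have i2 := S.finH (t / p) h0 h1
  have i3 := fin_F (S.G t)
  obtain ⟨h2, h3⟩ := h12 k S.Hi S.Fi (S.H t) (S.F t) (S.H (t / p)) S.ui S.πi (S.G t)
    (S.L t ht ht') (S.rH t) (S.rF t) (S.rH (t / p)) (S.rF_u t) (S.π_rF t) (S.glob t ht ht')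
    (S.topH t ht ht') (S.topH (t / p) h0 h1) S.q S.q_lt S.lift
  exact ⟨h2, fun h => ⟨ht, ht', (h3 h).1, (h3 h).2⟩⟩

/-- the goal, from the inequality at one level -/
theorem tightEnd_of (h12 : PropT12) : TightEnd := by
  intro ι _ ℓ hℓ K B0 B1 hS
  have hf := crit_finite ℓ hℓ
  have key : ∀ p : ℕ, ∃ R : ℝ → ℕ, p.Prime → 2 < p →
      (∀ s : ℝ, 0 < s → s ∉ Crit ℓ → R s ≤ K) ∧
      (∀ s t : ℝ, 0 < s → s ≤ t → (∀ x ∈ Icc s t, x ∉ Crit ℓ) → R s = R t) ∧
      (∀ s : ℝ, 0 < s → s ∉ Crit ℓ → p * s ∉ Crit ℓ → R s ≤ R (p * s)) ∧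
      (∀ α β : ℝ, 0 < α → α < β → (∀ x ∈ Ioo α β, x / p ∉ Crit ℓ) →
        (∀ s ∈ Ioo α β, s ∉ Crit ℓ → R (s / p) = R s) →
        β - α ≤ max B0 0 + 3 + (4 * K + 4) * (max B1 0 + 1)) := by
    intro p
    by_cases hp : p.Prime ∧ 2 < p
    · obtain ⟨k, fk, ⟨S⟩⟩ := hS p hp.1 hp.2
      have hp0 : 0 < p := hp.1.pos
      have hp' : (0 : ℝ) < p := by exact_mod_cast hp0
      refine ⟨fun t => Rinf k (S.rH t) S.q, fun _ _ => ⟨?_, ?_, ?_, ?_⟩⟩
      · intro s hs hs'
        exact PSys.rinf_le hs hs'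
      · intro s t hs hst h
        exact PSys.rinf_const hs hst h
      · intro s hs hs' hps
        have h1 := (S.star h12 hp0 (mul_pos hp' hs) hps).1
        rw [mul_div_cancel_left₀ s hp'.ne'] at h1
        exact h1
      · intro α β hα hαβ h1 h2
        refine PSys.window_short (S := S) hf hp0 hα ?_ h1
        intro t ht ht'
        have ht0 : 0 < t := hα.trans ht.1
        exact (S.star h12 hp0 ht0 ht').2 (h2 t ht ht').ge
    · exact ⟨fun _ => 0, fun h1 h2 => absurd ⟨h1, h2⟩ hp⟩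
  choose R hR using key
  exact AS.endgame ℓ hℓ R K (max B0 0 + 3 + (4 * K + 4) * (max B1 0 + 1))
    (fun p h1 h2 => (hR p h1 h2).1) (fun p h1 h2 => (hR p h1 h2).2.1)
    (fun p h1 h2 => (hR p h1 h2).2.2.1) (fun p h1 h2 => (hR p h1 h2).2.2.2)

end Vale.Agent.P216.T695
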