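import Vale.Agent.P216.Tight923.Trace
import Vale.Agent.P216.AS.Endgame707

set_option linter.unusedSectionVars false

/-!
# Theorem B of P216 (note 11516): interface of the algebraic endgame (sections 3 and 4)

`H t e` = `H^e(X_t; k)`, `F t e` = `H^e_{S^1}(X_t; k)`, `Hi e`, `Fi e` = the same for the whole
loop space (or any source of global classes).  No topology here.

* `AS.USeq k F H` (file `AS/Alg707.lean`) is the Gysin sequence
  `F n → F (n+2) → H (n+2) → F (n+1) → F (n+3) (maps u, π, d, u)`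
  (with `0 → F 0 → H 0 → 0` and `0 → F 1 → H 1 → F 0 → F 2` at the start).
* `Tight923.Inv` adds the reversal (`rF u = - u rF`, `rE π = π rF`, `rF d = - d rE`).
* `Loc` is the localisation map `F^e(X_t) → ⊕_{j ≡ e (2)} H^j(X_{t/p})` (`u = 1`), by components.
* `RelSeq` is the exact sequence of the pair `(X_t, X_s)` in `S^1`-cohomology with the reversal,
  with trace `0` on the relative group in every degree.
* `PSys` collects, for one prime `p`, everything that topology has to deliver;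
  `TightEnd` is the final (purely algebraic) theorem: such systems cannot exist for all `p`.
-/

open Module

namespace Vale.Agent.P216.T695

open Vale.Agent.P216.AS (USeq chi Crit)
open Vale.Agent.P216.Tight923 (Inv)

section Defs

variable (k : Type) [Field k]

/-- Localisation, by components: `ℓ e j : H^e_{S^1}(X_t) → H^j(X_{t/p})` is the coefficient of
`u^{(e-j)/2}` of the restriction to the fixed points of `Z/p`. -/
structure Loc (F H' : ℕ → Type)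
    [∀ n, AddCommGroup (F n)] [∀ n, Module k (F n)]
    [∀ n, AddCommGroup (H' n)] [∀ n, Module k (H' n)] (u : ∀ n, F n →ₗ[k] F (n + 2)) where
  ℓ : ∀ e j, F e →ₗ[k] H' j
  par : ∀ e j, (e + j) % 2 = 1 → ∀ x, ℓ e j x = 0
  ℓ_u : ∀ e j x, ℓ (e + 2) j (u e x) = ℓ e j x
  inj : ∃ N, ∀ e ≥ N, ∀ x, (∀ j, ℓ e j x = 0) → x = 0
  surj : ∃ N, ∀ e ≥ N, ∀ h : (∀ j, H' j), (∀ j, (e + j) % 2 = 1 → h j = 0) →
    ∃ x, ∀ j, ℓ e j x = h j

/-- Exact sequence of a pair with reversal; the trace on the relative groups is `0`. -/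
structure RelSeq (Ft Fs : ℕ → Type)
    [∀ n, AddCommGroup (Ft n)] [∀ n, Module k (Ft n)]
    [∀ n, AddCommGroup (Fs n)] [∀ n, Module k (Fs n)]
    (ρ : ∀ n, Ft n →ₗ[k] Fs n) (rt : ∀ n, Ft n →ₗ[k] Ft n) (rs : ∀ n, Fs n →ₗ[k] Fs n) where
  R : ℕ → Type
  [agR : ∀ n, AddCommGroup (R n)]
  [modR : ∀ n, Module k (R n)]
  j : ∀ n, R n →ₗ[k] Ft n
  δ : ∀ n, Fs n →ₗ[k] R (n + 1)
  ex1 : ∀ n, Function.Exact (j n) (ρ n)
  ex2 : ∀ n, Function.Exact (ρ n) (δ n)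
  ex3 : ∀ n, Function.Exact (δ n) (j (n + 1))
  rR : ∀ n, R n →ₗ[k] R n
  rR2 : ∀ n x, rR n (rR n x) = x
  hj : ∀ n x, rt n (j n x) = j n (rR n x)
  hδ : ∀ n x, rR (n + 1) (δ n x) = δ n (rs n x)
  chi0 : ∀ n, chi (rR n) = 0

attribute [instance] RelSeq.agR RelSeq.modR

/-- dimension of the non-global part of the cohomology, in the degrees `< m` of parity `q` -/
noncomputable def Rdim {Hi H : ℕ → Type}
    [∀ n, AddCommGroup (Hi n)] [∀ n, Module k (Hi n)]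
    [∀ n, AddCommGroup (H n)] [∀ n, Module k (H n)] (rH : ∀ n, Hi n →ₗ[k] H n) (q m : ℕ) : ℕ :=
  ∑ n ∈ (Finset.range m).filter (fun n => n % 2 = q), (finrank k (H n) -
    finrank k (LinearMap.range (rH n)))

/-- dimension of the non-global part of the cohomology, all degrees of parity `q` -/
noncomputable def Rinf {Hi H : ℕ → Type}
    [∀ n, AddCommGroup (Hi n)] [∀ n, Module k (Hi n)]
    [∀ n, AddCommGroup (H n)] [∀ n, Module k (H n)] (rH : ∀ n, Hi n →ₗ[k] H n) (q : ℕ) : ℕ :=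
  ∑ᶠ n, if n % 2 = q then finrank k (H n) - finrank k (LinearMap.range (rH n)) else 0

end Defs

/-- (T12) inequality (*) and its equality case, at one level.
`Hi, Fi` global, `H, F` at the level `t`, `H'` at the level `t / p`; `q` = parity of the global
classes (they all lift to `Fi`). -/
def PropT12 : Prop := ∀ (k : Type) [Field k] (Hi Fi H F H' : ℕ → Type)
    [∀ n, AddCommGroup (Hi n)] [∀ n, Module k (Hi n)]
    [∀ n, AddCommGroup (Fi n)] [∀ n, Module k (Fi n)]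
    [∀ n, AddCommGroup (H n)] [∀ n, Module k (H n)]
    [∀ n, AddCommGroup (F n)] [∀ n, Module k (F n)]
    [∀ n, AddCommGroup (H' n)] [∀ n, Module k (H' n)]
    [∀ n, FiniteDimensional k (H n)] [∀ n, FiniteDimensional k (F n)]
    [∀ n, FiniteDimensional k (H' n)]
    (ui : ∀ n, Fi n →ₗ[k] Fi (n + 2)) (πi : ∀ n, Fi n →ₗ[k] Hi n)
    (G : USeq k F H) (L : Loc k F H' G.u)
    (rH : ∀ n, Hi n →ₗ[k] H n) (rF : ∀ n, Fi n →ₗ[k] F n) (rH' : ∀ n, Hi n →ₗ[k] H' n)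
    (_ : ∀ n x, rF (n + 2) (ui n x) = G.u n (rF n x))
    (_ : ∀ n x, G.π n (rF n x) = rH n (πi n x))
    (_ : ∀ e j x, L.ℓ e j (rF e x) ∈ LinearMap.range (rH' j))
    (_ : ∃ N, ∀ n ≥ N, Subsingleton (H n)) (_ : ∃ N, ∀ n ≥ N, Subsingleton (H' n))
    (q : ℕ) (_ : q < 2) (_ : ∀ n, n % 2 = q → Function.Surjective (πi n)),
    Rinf k rH' q ≤ Rinf k rH q ∧ (Rinf k rH q ≤ Rinf k rH' q →
      (∀ e, e % 2 ≠ q → ∀ x, x ∈ Tight923.tor G.u e → x = 0) ∧
      (∀ e, e % 2 = q → Tight923.tor G.u e ≤ LinearMap.range (rF e)))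

/-- What topology delivers for one odd prime `p`: `crit` = critical levels, `q` = parity of
`n - 1` (as `0` or `1`), `K` = bound for the finite bars, `B0`, `B1` = bounds for the births. -/
structure PSys (k : Type) [Field k] (p : ℕ) (crit : Set ℝ) (K : ℕ) (B0 B1 : ℝ) where
  two_ne : (2 : k) ≠ 0
  /-- parity of the degrees of the classes `x i` -/
  q : ℕ
  q_lt : q < 2
  H : ℝ → ℕ → Type
  F : ℝ → ℕ → Type
  Hi : ℕ → Type
  Fi : ℕ → Type
  [agH : ∀ t n, AddCommGroup (H t n)]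
  [moH : ∀ t n, Module k (H t n)]
  [agF : ∀ t n, AddCommGroup (F t n)]
  [moF : ∀ t n, Module k (F t n)]
  [agHi : ∀ n, AddCommGroup (Hi n)]
  [moHi : ∀ n, Module k (Hi n)]
  [agFi : ∀ n, AddCommGroup (Fi n)]
  [moFi : ∀ n, Module k (Fi n)]
  /-- Gysin sequence and reversal at the level `t` -/
  G : ∀ t, USeq k (F t) (H t)
  I : ∀ t, Inv (G t)
  /-- localisation -/
  L : ∀ t, 0 < t → t ∉ crit → Loc k (F t) (H (t / p)) (G t).u
  /-- global classes -/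
  ui : ∀ n, Fi n →ₗ[k] Fi (n + 2)
  πi : ∀ n, Fi n →ₗ[k] Hi n
  rH : ∀ t n, Hi n →ₗ[k] H t n
  rF : ∀ t n, Fi n →ₗ[k] F t n
  rF_u : ∀ t n x, rF t (n + 2) (ui n x) = (G t).u n (rF t n x)
  π_rF : ∀ t n x, (G t).π n (rF t n x) = rH t n (πi n x)
  glob : ∀ t (h0 : 0 < t) (h : t ∉ crit) e j x,
    (L t h0 h).ℓ e j (rF t e x) ∈ LinearMap.range (rH (t / p) j)
  lift : ∀ n, n % 2 = q → Function.Surjective (πi n)
  /-- finiteness -/
  finH : ∀ t, 0 < t → t ∉ crit → ∀ n, FiniteDimensional k (H t n)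
  topH : ∀ t, 0 < t → t ∉ crit → ∃ N, ∀ n ≥ N, Subsingleton (H t n)
  /-- bounded finite bars (all parities) -/
  bars : ∀ t, 0 < t → t ∉ crit → ∀ m,
    ∑ n ∈ Finset.range m, (finrank k (H t n) - finrank k (LinearMap.range (rH t n))) ≤ K
  /-- restriction maps -/
  ρH : ∀ s t, s ≤ t → ∀ n, H t n →ₗ[k] H s n
  ρF : ∀ s t, s ≤ t → ∀ n, F t n →ₗ[k] F s n
  ρH_rH : ∀ s t (h : s ≤ t) n x, ρH s t h n (rH t n x) = rH s n x
  ρF_rF : ∀ s t (h : s ≤ t) n x, ρF s t h n (rF t n x) = rF s n x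
  ρF_u : ∀ s t (h : s ≤ t) n x, (G s).u n (ρF s t h n x) = ρF s t h (n + 2) ((G t).u n x)
  ρF_r : ∀ s t (h : s ≤ t) n x, (I s).rF n (ρF s t h n x) = ρF s t h n ((I t).rF n x)
  /-- the localisation is natural -/
  ℓ_ρ : ∀ s t (hs0 : 0 < s) (hs : s ∉ crit) (ht0 : 0 < t) (ht : t ∉ crit) (h : s ≤ t)
    (h' : s / p ≤ t / p) e j x,
    (L s hs0 hs).ℓ e j (ρF s t h e x) = ρH (s / p) (t / p) h' j ((L t ht0 ht).ℓ e j x)
  /-- no critical level between `s` and `t`: the restriction is bijective -/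
  reg : ∀ s t (h : s ≤ t), 0 < s → (∀ x ∈ Set.Icc s t, x ∉ crit) →
    ∀ n, Function.Bijective (ρH s t h n)
  /-- at most one critical level between `s` and `t` -/
  rel : ∀ s t (h : s ≤ t), 0 < s → s ∉ crit → t ∉ crit → (crit ∩ Set.Ioo s t).Subsingleton →
    Nonempty (RelSeq k (F t) (F s) (ρF s t h) (I t).rF (I s).rF)
  /-- the classes `x i`, of degree `e i + 1 = k_i (n - 1)`; `good i` means `¬ p ∣ k_i` -/
  e : ℕ → ℕ
  e_mono : StrictMono e
  e_two : ∀ i, 2 ≤ e i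
  e_par : ∀ i, (e i + 1) % 2 = q
  good : ℕ → Prop
  good_or : ∀ i, good i ∨ good (i + 1)
  x : ∀ i, Hi (e i + 1)
  gap : ∀ i, good i → ∀ y : Hi (e i), ∀ t, 0 < t → t ∉ crit → rH t (e i) y = 0
  span : ∀ i, good i → ∀ y : Hi (e i + 1), ∃ c : k, y = c • x i
  xh : ∀ i, good i → ∃ y : Fi (e i + 1), πi (e i + 1) y = x i ∧ ui (e i + 1) y = 0
  ε : ℕ → ℤ
  hε : ∀ i, ε i = 1 ∨ ε i = -1
  r_x : ∀ i, good i → ∀ t, 0 < t → t ∉ crit →
    (I t).rE (e i + 1) (rH t (e i + 1) (x i)) = (ε i : k) • rH t (e i + 1) (x i)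
  /-- births -/
  birth0 : ∀ t, B0 ≤ t → t ∉ crit → rH t (e 0 + 1) (x 0) ≠ 0
  birth : ∀ i s t, 0 < s → s ∉ crit → t ∉ crit → s + B1 ≤ t →
    rH s (e i + 1) (x i) ≠ 0 → rH t (e (i + 1) + 1) (x (i + 1)) ≠ 0

attribute [instance] PSys.agH PSys.moH PSys.agF PSys.moF PSys.agHi PSys.moHi PSys.agFi PSys.moFi

/-- **The goal.** -/
def TightEnd : Prop := ∀ {ι : Type} [Finite ι] (ℓ : ι → ℝ) (_ : ∀ i, 0 < ℓ i) (K : ℕ) (B0 B1 : ℝ)
  (_ : ∀ p : ℕ, p.Prime → 2 < p → ∃ (k : Type) (_ : Field k),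
    Nonempty (PSys k p (Crit ℓ) K B0 B1)), False

end Vale.Agent.P216.T695
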