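import Vale.Agent.P216.T695.End
import Vale.Agent.P216.B633.T12

/-! # Theorem B of P216: the algebraic endgame, complete -/

namespace Vale.Agent.P216.T695

theorem tightEnd : TightEnd := tightEnd_of B633.propT12

end Vale.Agent.P216.T695
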